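import Mathlib

/-!
The certificate, as a structure over any module with five operators, and its algebraic
consequences: the boundary of the cycle is zero and the coefficients of the annuli are invariant.
The operators are numbered from `0` (`s 0, ..., s 4`); names like `w13`, `n14` use `1, ..., 5`.
-/

namespace Vale.Agent.P273.H221

variable {V : Type*} [AddCommGroup V] [Module ℝ V]

/-- the cycle `e13 w13 + e15 w15 + e35 w35 + e14 n14 + e25 n25 + e34 (n3 + n4)`, which is the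
boundary of a three-chain -/
structure Cert (s : Fin 5 → V →ₗ[ℝ] V) where
  w13 : V
  w15 : V
  w35 : V
  n14 : V
  n25 : V
  n3 : V
  n4 : V
  Y124 : V
  Y125 : V
  Y235 : V
  Y134 : V
  Y234 : V
  inv14 : s 0 n14 = n14
  inv25 : s 4 n25 = n25
  inv3 : s 2 n3 = n3
  inv4 : s 3 n4 = n4
  c12 : (s 3 Y124 - Y124) + (s 4 Y125 - Y125) = 0
  c14 : (Y124 - s 1 Y124 + s 1 (s 0 Y124)) + (Y134 - s 2 Y134 + s 2 (s 3 Y134)) = n14
  c24 : -(Y124 - s 0 Y124 + s 0 (s 1 Y124)) + (Y234 - s 2 Y234 + s 2 (s 1 Y234) + s 2 (s 3 Y234)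
    - s 2 (s 3 (s 1 Y234)) + s 2 (s 3 (s 1 (s 2 Y234)))) = 0
  c15 : Y125 - s 1 Y125 + s 1 (s 0 Y125) = w15
  c25 : -(Y125 - s 0 Y125 + s 0 (s 1 Y125)) + (Y235 - s 2 Y235 + s 2 (s 1 Y235)) = n25
  c13 : -(Y134 - s 3 Y134 + s 3 (s 2 Y134)) = w13
  c34 : (s 0 Y134 - Y134) - (Y234 - s 1 Y234 + s 1 (s 2 Y234) - s 1 (s 2 (s 3 Y234))) = n3 + n4
  c23 : (s 4 Y235 - Y235) - (Y234 - s 3 Y234 + s 3 (s 2 Y234) - s 3 (s 2 (s 1 Y234))) = 0
  c35 : -(Y235 - s 1 Y235 + s 1 (s 2 Y235)) = w35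

variable {s : Fin 5 → V →ₗ[ℝ] V}

/-- the braid relations -/
structure Braid (s : Fin 5 → V →ₗ[ℝ] V) : Prop where
  comm : ∀ i j : Fin 5, (i : ℕ) + 2 ≤ j → ∀ v, s j (s i v) = s i (s j v)
  braid : ∀ i j : Fin 5, (i : ℕ) + 1 = j → ∀ v, s j (s i (s j v)) = s i (s j (s i v))

namespace Cert

variable (z : Cert s)

/-- the coefficient of the circle of the first pair in the boundary of the three tori -/
def v1 : V := (s 2 z.w13 - z.w13) + (s 4 z.w15 - z.w15)

/-- the coefficient of the circle of the second pair in the boundary of the three tori -/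
def v3 : V := (z.w13 - s 0 z.w13) + (s 4 z.w35 - z.w35)

/-- the coefficient of the circle of the third pair in the boundary of the three tori -/
def v5 : V := (z.w15 - s 0 z.w15) + (z.w35 - s 2 z.w35)

theorem bd1 (hs : Braid s) : z.v1 + (s 3 z.n14 - z.n14) = 0 := by
  have h1 := hs.comm 1 4 (by decide) z.Y125
  have h2 := hs.comm 1 4 (by decide) (s 0 z.Y125)
  have h2' := congrArg (s 1) (hs.comm 0 4 (by decide) z.Y125)
  have h3 := hs.comm 1 3 (by decide) z.Y124
  have h4 := hs.comm 1 3 (by decide) (s 0 z.Y124)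
  have h4' := congrArg (s 1) (hs.comm 0 3 (by decide) z.Y124)
  have h5 := hs.braid 2 3 (by decide) z.Y134
  have c := z.c12
  have c1 := congrArg (s 1) z.c12
  have c2 := congrArg (s 1) (congrArg (s 0) z.c12)
  rw [v1, ← z.c13, ← z.c15, ← z.c14]
  simp only [map_add, map_sub, map_neg, map_zero] at c1 c2 ⊢
  linear_combination (norm := module) c - c1 + c2 - h1 + h2 + h2' - h3 + h4 + h4' + h5

theorem bd5 (hs : Braid s) : z.v5 + (z.n25 - s 1 z.n25) = 0 := by
  have h1 := hs.braid 0 1 (by decide) z.Y125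
  have h2 := hs.braid 1 2 (by decide) z.Y235
  rw [v5, ← z.c15, ← z.c35, ← z.c25]
  simp only [map_add, map_sub, map_neg]
  linear_combination (norm := module) h1 + h2

theorem bd4 (hs : Braid s) : z.n4 + s 2 (s 3 z.n3) = 0 := by
  have a1 := hs.braid 0 1 (by decide) z.Y124
  have b1 := hs.comm 0 2 (by decide) z.Y134
  have b2 := hs.comm 0 2 (by decide) (s 3 z.Y134)
  have b3 := congrArg (s 2) (hs.comm 0 3 (by decide) z.Y134)
  have c1 := hs.braid 1 2 (by decide) z.Y234
  have c2 := hs.braid 1 2 (by decide) (s 3 z.Y234)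
  have c3 := congrArg (s 1) (congrArg (s 2) (hs.comm 1 3 (by decide) z.Y234))
  have c4 := congrArg (s 2) (hs.comm 1 3 (by decide) (s 2 (s 3 z.Y234)))
  have c5 := congrArg (s 2) (congrArg (s 1) (hs.braid 2 3 (by decide) z.Y234))
  have c6 := hs.braid 1 2 (by decide) (s 3 (s 2 z.Y234))
  have c7 := congrArg (s 1) (congrArg (s 2) (hs.comm 1 3 (by decide) (s 2 z.Y234)))
  have e1 := z.c34
  have e2 := congrArg (s 2) z.c34
  have e3 := congrArg (s 2) (congrArg (s 3) z.c34)
  have f1 := z.c14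
  have f2 := congrArg (s 0) z.c14
  have g1 := z.c24
  have g2 := congrArg (s 1) z.c24
  have k1 := z.inv14
  have k2 := z.inv3
  have k3 := congrArg (s 2) z.inv4
  simp only [map_add, map_sub, map_neg, map_zero] at e2 e3 f2 g2
  linear_combination (norm := module) -e1 + e2 - e3 - f1 + f2 - g1 + g2 + k1 + k2 - k3 + a1
    - b1 + b2 + b3 + c1 - c2 + c3 + c4 + c5 + c6 - c7

theorem bd3 (hs : Braid s) : z.v3 - (z.n3 + s 3 (s 2 z.n4)) = 0 := by
  have b1 := hs.comm 0 3 (by decide) z.Y134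
  have b2 := hs.comm 0 3 (by decide) (s 2 z.Y134)
  have b3 := congrArg (s 3) (hs.comm 0 2 (by decide) z.Y134)
  have d1 := hs.comm 1 4 (by decide) z.Y235
  have d2 := hs.comm 1 4 (by decide) (s 2 z.Y235)
  have d3 := congrArg (s 1) (hs.comm 2 4 (by decide) z.Y235)
  have c1 := hs.comm 1 3 (by decide) z.Y234
  have c2 := hs.comm 1 3 (by decide) (s 2 z.Y234)
  have c3 := hs.comm 1 3 (by decide) (s 2 (s 3 z.Y234))
  have c3' := congrArg (s 1) (hs.braid 2 3 (by decide) z.Y234)
  have c4 := congrArg (s 3) (hs.braid 1 2 (by decide) z.Y234)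
  have c4' := hs.comm 1 3 (by decide) (s 2 (s 1 z.Y234))
  have c5 := congrArg (s 3) (hs.braid 1 2 (by decide) (s 3 z.Y234))
  have c6 := hs.comm 1 3 (by decide) (s 2 (s 1 (s 3 z.Y234)))
  have c7 := congrArg (s 1) (congrArg (s 3) (congrArg (s 2) (hs.comm 1 3 (by decide) z.Y234)))
  have c8 := congrArg (s 1) (hs.braid 2 3 (by decide) (s 1 z.Y234))
  have e1 := z.c34
  have e2 := congrArg (s 3) z.c34
  have e3 := congrArg (s 3) (congrArg (s 2) z.c34)
  have g1 := z.c23
  have g2 := congrArg (s 1) z.c23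
  have g3 := congrArg (s 1) (congrArg (s 2) z.c23)
  have k2 := congrArg (s 3) z.inv3
  have k3 := z.inv4
  rw [v3, ← z.c13, ← z.c35]
  simp only [map_add, map_sub, map_neg, map_zero] at e2 e3 g2 g3 ⊢
  linear_combination (norm := module) e1 - e2 + e3 - g1 + g2 - g3 + k2 - k3 + b1 - b2 - b3 + d1
    - d2 - d3 + c1 - c2 + c3 + c3' + c4 + c4' - c5 - c6 + c7 - c8

/-- the coefficients of the annuli are invariant -/
theorem inv_v1 (hs : Braid s) : s 0 z.v1 = z.v1 := by
  have h := z.bd1 hs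
  have h0 : z.v1 = z.n14 - s 3 z.n14 := by linear_combination (norm := module) h
  have c := hs.comm 0 3 (by decide) z.n14
  rw [h0, map_sub, ← c, z.inv14]

theorem inv_v5 (hs : Braid s) : s 4 z.v5 = z.v5 := by
  have h := z.bd5 hs
  have h0 : z.v5 = s 1 z.n25 - z.n25 := by linear_combination (norm := module) h
  have c := hs.comm 1 4 (by decide) z.n25
  rw [h0, map_sub, c, z.inv25]

theorem inv_v3 (hs : Braid s) : s 2 z.v3 = z.v3 := by
  have h4 := z.bd4 hs
  have h := z.bd3 hs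
  have h4' : z.n4 = -s 2 (s 3 z.n3) := by linear_combination (norm := module) h4
  have h0 : z.v3 = z.n3 - s 3 (s 2 (s 2 (s 3 z.n3))) := by
    rw [h4'] at h
    simp only [map_neg] at h
    linear_combination (norm := module) h
  have c1 := hs.braid 2 3 (by decide) (s 2 (s 3 z.n3))
  have c2 := congrArg (s 3) (congrArg (s 2) (hs.braid 2 3 (by decide) z.n3))
  rw [z.inv3] at c2
  rw [h0, map_sub, z.inv3, ← c1, c2]

end Cert

end Vale.Agent.P273.H221
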