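import Vale.Agent.P273.H681.Eng
import Vale.Agent.P273.H213.Wt
import Vale.Agent.P273.H480.Data2

/-!
The weights of the three torus coefficients of the certificate, from the tables (kernel check).
-/

namespace Vale.Agent.P273.H221

open H213 H681

/-- the table with the entries of weight at least nine replaced by zero -/
def cutT (t : Tb) : Tb := tab fun a b c d => if d + 2 ≤ a then 0 else gt t a b c d

theorem wt_cut (t : Tb) : Wt 9 (fnT (cutT t)) := by
  rw [fnT]
  refine Wt_fn fun m hm h => ?_
  have h1 : vl (cutT t) m = 0 := by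
    rw [vl, cutT, gt_tab _ (le7 hm), if_pos]
    rw [wd] at h
    simp only [Fin.sum_univ_five, ww, Matrix.cons_val_zero, Matrix.cons_val_one,
      Matrix.cons_val] at h hm
    omega
  rw [h1, Int.cast_zero]

theorem wt_of_chk {t : Tb} (h : eq4 (cutT t) t = true) : Wt 9 (fnT t) := by
  rw [← fnT_eq h]
  exact wt_cut t

theorem wt_13 : Wt 9 (fnT H480.tw13) := wt_of_chk (by decide +kernel)

theorem wt_15 : Wt 9 (fnT H480.tw15) := wt_of_chk (by decide +kernel)

theorem wt_35 : Wt 9 (fnT H480.tw35) := wt_of_chk (by decide +kernel)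

end Vale.Agent.P273.H221
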