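import Vale.Agent.P273.H503.LocF
import Vale.Agent.P273.H728.ExtOf
import Vale.Agent.P273.H562.AsyDefs
import Vale.Agent.P273.H25.Coef
import Vale.Agent.P273.H188.Law
import Vale.Agent.P273.H811.BulkThm
import Vale.Agent.P273.H828.Ann
import Vale.Agent.P273.H681.Braid
import Vale.Agent.P273.H213.Wt
import Vale.Agent.P273.H254.Val

/-!
The chain: the statement `LimOut` from the inputs that are still open (the hypotheses of
`limOut`). All other steps are proved here or in the imported files.
-/

noncomputable section
namespace Vale.Agent.P273.H221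

open Filter
open scoped Topology

/-- (EXT, row CLOSE-EXT) every closed form on families of stable curves gives the forms of the
wall. -/
def ExtAll : Prop :=
  ∀ F : H503.Form16, H183.IsClosedForm H503.Lg14 (8 * 2) F → ∃ X : H95.Ext, H728.ExtOf F X

/-- (GAUGE) the harmonic gauge with its asymptotics at the theta point (`κ` = the constants of the
matching) and at the divisors. -/
def GaugeAll (κ : Fin 3 → Fin 3 → ℝ) : Prop :=
  ∃ Θ : H95.Gauge, H879.Asy1 Θ ∧ H562.Asy κ Θ

/-- The three torus coefficients of the certificate have weight at least six (they kill all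
monomials with nine or more factors `e1`, `e2`) and kill the Pluecker relation. -/
structure CertOK (z : Cert H213.sV) : Prop where
  wt13 : H213.Wt 9 z.w13
  wt15 : H213.Wt 9 z.w15
  wt35 : H213.Wt 9 z.w35
  pl13 : H254.PlV z.w13
  pl15 : H254.PlV z.w15
  pl35 : H254.PlV z.w35

/-- (LIM) the limit of the tori minus the annuli at the theta point, in terms of the values of the
form on the strata. -/
def LimTA (κ : Fin 3 → Fin 3 → ℝ) (z : Cert H213.sV) (c : ℝ) : Prop :=
  ∀ (F : H503.Form16) (X : H95.Ext) (Θ : H95.Gauge),
    H183.IsClosedForm H503.Lg14 (8 * 2) F → H728.ExtOf F X → H562.Asy κ Θ →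
    Tendsto (TA z (H503.loc X Θ H811.bulkSmooth H811.bulkLinear H188.bulkLaw)) (𝓝[>] 0) (𝓝 (c *
      ∑ q ∈ Finset.range 7, ∑ p ∈ Finset.range (q + 1),
        H25.CC z p q * H93.DS p q (H503.str F)))

/-- The braid relations for the local system of the coefficients. -/
theorem braid_loc (X : H95.Ext) (Θ : H95.Gauge) :
    H828.Braid (H503.loc X Θ H811.bulkSmooth H811.bulkLinear H188.bulkLaw) :=
  braid828 (D := H503.loc X Θ H811.bulkSmooth H811.bulkLinear H188.bulkLaw) H681.braid_sV

/-- The passage to the theta point for the local system. -/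
theorem annV : Ann H213.VV := fun _ hB hN => H828.annProp hB hN

/-- **`LimOut` from the open inputs.**
* `hX`: wall EXT (888, 894, 724, 768, 948, 507, 450);
* `hG`: the harmonic gauge (857, 214, 604, 973) with `Asy` (803, 562) and `Asy1` (730);
* `hN`: decay (266, 879, 120, 752, 441);
* `z`, `hz`: certificate (480, 681, 213);
* `hT`: limit (573, 562). -/
theorem limOut (hX : ExtAll) {κ : Fin 3 → Fin 3 → ℝ} (hG : GaugeAll κ) (hN : H879.NegOf)
    {z : Cert H213.sV} {c : ℝ} (hc : c ≠ 0) (hT : LimTA κ z c) : H503.LimOut (H25.CC z) :=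
  H503.limOut (P := H728.ExtOf) (Q := H562.Asy κ) hX hG H811.bulkSmooth H811.bulkLinear
    H188.bulkLaw hN H681.braid_sV annV hc
    fun F X Θ _ _ _ hF hP hQ => hT F X Θ hF hP hQ

end Vale.Agent.P273.H221
end
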