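import Vale.Agent.P273.H837.Top2
import Vale.Agent.P273.H573.Close
import Vale.Agent.P273.H681.Cert2
import Vale.Agent.P273.H25.CoeffCert
import Vale.Agent.P273.H720.Integr

/-!
The chain: the final statement from the inputs that are still open (the hypotheses of
`final_chain`).
-/

namespace Vale.Agent.P273.H221

/-- The weight conditions and the Pluecker relation for the certificate. -/
theorem certOK : CertOK H681.cert where
  wt13 := H681.wt_w13
  wt15 := H681.wt_w15
  wt35 := H681.wt_w35
  pl13 := H681.pl_w13
  pl15 := H681.pl_w15
  pl35 := H681.pl_w35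

/-- **The final statement from the open inputs.**
* `hV`: the densities on the cells (728);
* `hX`: wall EXT (450, 888, 724, 883, 183, 948, 591, 395);
* `hG`: the harmonic gauge (580, 214, 973) with `Asy` (803) and `Asy1` (730);
* `hN`: decay (879, 266, 752, 828);
* `h`: the steps of the limit (573). -/
theorem final_chain (hV : H720.V1) (hX : ExtAll) {κ : Fin 3 → Fin 3 → ℝ}
    (hG : GaugeAll κ) (hN : H879.NegOf) (h : H573.Steps κ) : H503.Final :=
  Top2.final_of2 (H720.integr_of hV hX) (H573.limOut hX hG hN h certOK) H25.coeff_cert

end Vale.Agent.P273.H221
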