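import Vale.Agent.P273.H221.Last
import Vale.Agent.P273.H803.Asy0
import Vale.Agent.P273.H730.Fin1
import Vale.Agent.P273.H573.StepsAll
import Vale.Agent.P273.H261.PtMain3

/-!
The final statement.
-/

namespace Vale.Agent.P273.H221

/-- **The final statement**, without hypotheses. -/
theorem final : H503.Final :=
  final_rest H803.asy0 H730.asy1
    (H573.steps_of_pt (fun X _ h => H261.ptT X h) fun X _ h => H261.ptA X h)

end Vale.Agent.P273.H221
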