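import Vale.Agent.P273.H221.Fin
import Vale.Agent.P273.H728.V1
import Vale.Agent.P273.H395.Comp3
import Vale.Agent.P273.H591.StartEx
import Vale.Agent.P273.H973.Gauge0
import Vale.Agent.P273.H879.NegOf

/-!
The final statement from the inputs that are still open: the asymptotics of the gauge at the theta
point and at the divisors, and the steps of the limit.
-/

namespace Vale.Agent.P273.H221

/-- Every closed form gives the wall. -/
theorem extAll : ExtAll := H395.extAll_of_start H591.startEx

/-- **The final statement from the open inputs.** -/
theorem final_rest {κ : Fin 3 → Fin 3 → ℝ} (h0 : H562.Asy κ H973.gauge0)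
    (h1 : H879.Asy1 H973.gauge0) (h : H573.Steps κ) : H503.Final :=
  final_chain H728.v1 extAll ⟨H973.gauge0, h1, h0⟩ H879.negOf h

end Vale.Agent.P273.H221
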