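import Vale.Agent.P273.H221.Last
import Vale.Agent.P273.H67.Fields
import Vale.Agent.P273.H93.ValZero
import Vale.Agent.P273.H254.ValP
import Vale.Agent.P273.H92.PieceSum

/-!
The final statement from the inputs that are still open (2).
-/

namespace Vale.Agent.P273.H221

open H573 in
/-- **The final statement from the open inputs.** -/
theorem final_rest2 {κ : Fin 3 → Fin 3 → ℝ} (h0 : H562.Asy κ H973.gauge0)
    (h1 : H879.Asy1 H973.gauge0) (hF : ∀ X Θ, LimFib X Θ)
    (hRT : ∀ X Θ, H562.Asy κ Θ → LimRegT X Θ) (hRA : ∀ X Θ, H562.Asy κ Θ → LimRegA X Θ)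
    (hST : ∀ X, SumT X) (hSA : ∀ X, SumA X) : H503.Final :=
  final_rest h0 h1
    { torus := H67.torusF hF
      annulus := H67.annulusF hF
      regT := hRT
      regA := hRA
      sumT := hST
      sumA := hSA
      val0 := H93.valZero
      valT := H254.valTP
      valA := H254.valAP
      piece := fun F X hF hX => H92.pieceSum F X hF hX }

end Vale.Agent.P273.H221
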