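import Vale.Agent.P273.H221.Alg
import Vale.Agent.P273.H681.CellC
import Vale.Agent.P273.H681.CellE
import Vale.Agent.P273.H828.AnnDefs
import Vale.Agent.P273.H503.Top

/-!
The middle of the chain: the form vanishes on the cycle of the certificate (`cert_zero`), the cycle
in the form used for the passage to the theta point (`toCyc`), and the statement `LimOut` of the top
of the chain from the local system of a closed form, its limit, and the decay at the divisors
(`limOut_of`).
-/

noncomputable section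
namespace Vale.Agent.P273.H221

open MeasureTheory Set Filter H401 H681
open scoped Topology

variable {V F : Type*} [AddCommGroup V] [Module ℝ V] [NormedAddCommGroup F] [NormedSpace ℝ F]

/-- the form vanishes on the cycle of the certificate -/
theorem cert_zero (D : Loc2 V F) (z : Cert D.s) :
    phiT D 0 2 z.w13 + phiT D 0 4 z.w15 + phiT D 2 4 z.w35 + phiT D 0 3 z.n14 + phiT D 1 4 z.n25 +
    (phiH D 2 3 z.n3 + phiH D 2 3 z.n4) = 0 := by
  have h1 := rel_013 D z.Y124
  have h2 := rel_014 D z.Y125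
  have h3 := rel_124 D z.Y235
  have h4 := rel_023 D z.Y134
  have h5 := rel_123 D z.Y234
  have e12 := congrArg (phiHl D 0 1) z.c12
  have e14 := congrArg (phiTl D 0 3) z.c14
  have e24 := congrArg (phiTl D 1 3) z.c24
  have e15 := congrArg (phiTl D 0 4) z.c15
  have e25 := congrArg (phiTl D 1 4) z.c25
  have e13 := congrArg (phiTl D 0 2) z.c13
  have e34 := congrArg (phiHl D 2 3) z.c34
  have e23 := congrArg (phiHl D 1 2) z.c23
  have e35 := congrArg (phiTl D 2 4) z.c35
  simp only [map_add, map_sub, map_neg, map_zero, phiHl_apply, phiTl_apply]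
    at e12 e14 e24 e15 e25 e13 e34 e23 e35
  linear_combination (norm := module) h1 + h2 + h3 + h4 + h5 - e12 - e24 - e23 - e14 - e15 - e25
    - e13 - e34 - e35

/-- the cycle with its properties, in the form used for the passage to the theta point -/
def toCyc (D : Loc2 V F) (hB : Braid D.s) (z : Cert D.s) : H828.Cyc D where
  w13 := z.w13
  w15 := z.w15
  w35 := z.w35
  n14 := z.n14
  n25 := z.n25
  n3 := z.n3
  n4 := z.n4
  inv14 := z.inv14
  inv25 := z.inv25
  inv3 := z.inv3
  inv4 := z.inv4
  zero := cert_zero D z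
  d1 := z.bd1 hB
  d3 := by rw [← z.bd3 hB, Cert.v3]; abel
  d4 := by rw [← z.bd4 hB, z.inv14]; abel
  d5 := z.bd5 hB

theorem braid828 {D : Loc2 V F} (hB : Braid D.s) : H828.Braid D :=
  ⟨fun i j h v => (hB.comm i j h v).symm, fun i j h v => (hB.braid i j h v).symm⟩

/-- tori minus annuli of size `r` at the theta point -/
def TA {s : Fin 5 → V →ₗ[ℝ] V} (z : Cert s) (D : Loc2 V F) (r : ℝ) : F :=
  H828.TOR D r 0 1 z.w13 + H828.TOR D r 0 2 z.w15 + H828.TOR D r 1 2 z.w35 -
    (H828.ANN D r 0 z.v1 + H828.ANN D r 1 z.v3 + H828.ANN D r 2 z.v5)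

/-- (ANN, owner 828) the passage to the theta point -/
def Ann (V : Type) [AddCommGroup V] [Module ℝ V] : Prop :=
  ∀ D : Loc2 V ℝ, H828.Braid D → H828.Neg D → H828.AnnProp D

theorem TA_zero {V : Type} [AddCommGroup V] [Module ℝ V] (hA : Ann V) {s : Fin 5 → V →ₗ[ℝ] V}
    (hB : Braid s) (z : Cert s) (D : Loc2 V ℝ) (hD : D.s = s) (hN : H828.Neg D) {r : ℝ}
    (hr : r ∈ Ioc (0 : ℝ) 1) : TA z D r = 0 := by
  subst hD
  have h := hA D (braid828 hB) hN (toCyc D hB z) r hr
  exact sub_eq_zero.2 h

/-- (BULK + NEG + LIM) every closed form on families gives a closed two-form with coefficients in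
the local system, which decays at the divisors, and whose integral over the tori minus the annuli
at the theta point has the combination of the strata as its limit. -/
def BulkLim {V : Type} [AddCommGroup V] [Module ℝ V] (s : Fin 5 → V →ₗ[ℝ] V) (z : Cert s)
    (C : ℕ → ℕ → ℝ) (κ : ℝ) : Prop :=
  ∀ F : H503.Form16, H183.IsClosedForm H503.Lg14 (8 * 2) F → ∃ D : Loc2 V ℝ, D.s = s ∧
    H828.Neg D ∧ Tendsto (TA z D) (𝓝[>] 0) (𝓝 (κ *
      ∑ q ∈ Finset.range 7, ∑ p ∈ Finset.range (q + 1), C p q * H93.DS p q (H503.str F)))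

/-- **W1**: the statement `LimOut` from the named inputs -/
theorem limOut_of {V : Type} [AddCommGroup V] [Module ℝ V] (s : Fin 5 → V →ₗ[ℝ] V) (z : Cert s)
    (hB : Braid s) (hA : Ann V) {C : ℕ → ℕ → ℝ} {κ : ℝ} (hκ : κ ≠ 0) (hL : BulkLim s z C κ) :
    H503.LimOut C := by
  intro F hF
  obtain ⟨D, hD, hN, hT⟩ := hL F hF
  have h0 : Tendsto (TA z D) (𝓝[>] 0) (𝓝 0) := by
    refine tendsto_const_nhds.congr' ?_
    filter_upwards [Ioc_mem_nhdsGT (zero_lt_one (α := ℝ))] with r hr
    exact (TA_zero hA hB z D hD hN hr).symm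
  have h1 := tendsto_nhds_unique hT h0
  exact (mul_eq_zero.1 h1).resolve_left hκ

end Vale.Agent.P273.H221
end
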