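import Vale.Agent.P273.H573.Skel
import Vale.Agent.P273.H213.Wt

/-!
The weight conditions of the certificate: from the coefficients to the multilinear forms.
-/

noncomputable section
namespace Vale.Agent.P273.H221

open H95 H573

theorem pA_eq_zero (x : H4) : pA x = 0 ↔ x ∈ H213.MM := by
  rw [H213.mem_MM]
  constructor
  · intro h
    exact ⟨congrFun h 1, congrFun h 3⟩
  · rintro ⟨h1, h3⟩
    funext i
    fin_cases i
    · rfl
    · exact h1
    · rfl
    · exact h3

/-- weight of the coefficient = weight of its multilinear form -/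
theorem wtT_of_wt {n : ℕ} {v : H213.VV} (hv : H213.Wt n v) : WtT n (H503.mtV v) := by
  intro x hx
  rw [H503.mtV_apply]
  refine H213.TT_kill hv _ ((Finset.univ.filter fun j => pA (x j) = 0).map
    H503.eS.symm.toEmbedding) ?_ fun i hi => ?_
  · rwa [Finset.card_map]
  · obtain ⟨j, hj, rfl⟩ := Finset.mem_map.1 hi
    have h := (pA_eq_zero _).1 (Finset.mem_filter.1 hj).2
    change x (H503.eS (H503.eS.symm j)) ∈ H213.MM
    rwa [Equiv.apply_symm_apply]

/-- **the weight conditions of the certificate** -/
theorem wtC_of {z : Cert H213.sV} (h13 : H213.Wt 9 z.w13) (h15 : H213.Wt 9 z.w15)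
    (h35 : H213.Wt 9 z.w35) : WtC z where
  w13 := wtT_of_wt h13
  w15 := wtT_of_wt h15
  w35 := wtT_of_wt h35
  v1 := wtT_of_wt ((h13.sV_sub (by decide)).add (h15.sV_sub (by decide)))
  v3 := wtT_of_wt (by
    have h := (h13.sV_sub (k := 0) (by decide)).neg
    rw [neg_sub] at h
    exact h.add (h35.sV_sub (by decide)))
  v5 := wtT_of_wt (by
    have h := (h15.sV_sub (k := 0) (by decide)).neg
    have h' := (h35.sV_sub (k := 2) (by decide)).neg
    rw [neg_sub] at h h'
    exact h.add h')

end Vale.Agent.P273.H221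
end
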